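import Vale.Agent.P193.Full.Orbit.Core
import Mathlib.Data.Fintype.Prod
import Mathlib.Data.Fintype.Sum
import Mathlib.Data.Countable.Basic
import Mathlib.Logic.Denumerable

/-! The points of a core model are countable. -/

namespace Vale.Agent.P193.Orbit

open Core

/-- A code of a guess-automaton state. -/
def patCode : Pat → Fin 4 × Bool × Bool
  | .bd i => (0, i, false)
  | .step i p => (1, i, p)
  | .gPre => (2, false, false)
  | .gHead => (2, false, true)
  | .gDone => (2, true, false)
  | .out => (3, false, false)

instance : Finite Pat := Finite.of_injective patCode fun a b h => by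
  cases a <;> cases b <;> simp_all [patCode]

/-- A code of a state. -/
def stCode {A Q Qh : Type} : St A Q Qh →
    (Bool ⊕ Bool) ⊕ (Bool × Q) ⊕ (Bool × Qh) ⊕ (Pat × ((A × Bool) × Bool))
  | .guess => .inl (.inl false)
  | .fin => .inl (.inl true)
  | .bd i => .inl (.inr i)
  | .step i q => .inr (.inl (i, q))
  | .halt i q => .inr (.inr (.inl (i, q)))
  | .scan p s => .inr (.inr (.inr (p, s)))

instance {A Q Qh : Type} [Finite A] [Finite Q] [Finite Qh] : Finite (St A Q Qh) :=
  Finite.of_injective stCode fun a b h => by
    cases a <;> cases b <;> simp_all [stCode]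

/-- A code of a kind. -/
def kindCode {n : ℕ} : Kind n → Fin n ⊕ Bool
  | .letter i => .inl i
  | .junk => .inr true
  | .other => .inr false

instance {n : ℕ} : Finite (Kind n) :=
  Finite.of_injective kindCode fun a b h => by cases a <;> cases b <;> simp_all [kindCode]

variable (d : Data)

instance : Finite d.M.A := @Finite.of_fintype _ d.M.fintypeA
instance : Finite d.M.Q := @Finite.of_fintype _ d.M.fintypeQ
instance : Finite d.M.Qh := @Finite.of_fintype _ d.M.fintypeQh

instance : Countable (Edge d) :=
  Function.Injective.countable (f := fun e : Edge d => (e.src, e.tgt, e.p, e.q, e.kind))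
    fun a b h => by cases a; cases b; simp_all

/-- The edges of a path. -/
def pathEdges : {s : State d} → Path d s → List (Edge d)
  | _, .nil => []
  | _, .cons e _ σ => e :: pathEdges σ

theorem pathEdges_inj : ∀ {s s' : State d} (σ : Path d s) (τ : Path d s'),
    pathEdges d σ = pathEdges d τ → (⟨s, σ⟩ : Σ s, Path d s) = ⟨s', τ⟩ := by
  intro s s' σ
  induction σ generalizing s' with
  | nil => intro τ h; cases τ <;> simp_all [pathEdges]
  | cons e he σ ih =>
    intro τ h
    cases τ with
    | nil => simp [pathEdges] at h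
    | cons e' he' τ =>
      simp only [pathEdges, List.cons.injEq] at h
      obtain ⟨rfl, h⟩ := h
      obtain rfl : σ = τ := eq_of_heq (Sigma.mk.inj (ih τ h)).2
      rfl

instance : Countable (Σ s, Path d s) :=
  Function.Injective.countable (f := fun x : Σ s, Path d s => pathEdges d x.2)
    fun ⟨_, σ⟩ ⟨_, τ⟩ h => pathEdges_inj d σ τ h

/-- A layer of a stack. -/
abbrev Layer := Fin 5 × (Σ s, Path d s) × Inner d × Outer d

/-- The layers of a stack. -/
def layers : {b : Bool} → Wd d b → List (Layer d)
  | _, .omC σ c h => (0, ⟨_, σ⟩, 1, h) :: layers c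
  | _, .tpush c => (1, ⟨_, .nil⟩, 1, 1) :: layers c
  | _, .base => []
  | _, .theta σ _ w g => (2, ⟨_, σ⟩, g, 1) :: layers w
  | _, .omD σ c h => (3, ⟨_, σ⟩, 1, h) :: layers c
  | _, .omK σ c h => (4, ⟨_, σ⟩, 1, h) :: layers c

theorem layers_inj : ∀ {b b' : Bool} (w : Wd d b) (w' : Wd d b'),
    layers d w = layers d w' → (⟨b, w⟩ : Σ b, Wd d b) = ⟨b', w'⟩ := by
  intro b b' w
  induction w generalizing b' with
  | base => intro w' h; cases w' <;> simp_all [layers]
  | omC σ c h ih =>
    intro w' e
    cases w' with
    | omC σ' c' h' =>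
      simp only [layers, List.cons.injEq, Prod.mk.injEq] at e
      obtain ⟨⟨-, e1, -, rfl⟩, e2⟩ := e
      cases e1
      cases ih c' e2
      rfl
    | _ => simp [layers] at e
  | tpush c ih =>
    intro w' e
    cases w' with
    | tpush c' =>
      simp only [layers, List.cons.injEq] at e
      cases ih c' e.2
      rfl
    | _ => simp [layers] at e
  | theta σ b w g ih =>
    intro w' e
    cases w' with
    | theta σ' b' w' g' =>
      simp only [layers, List.cons.injEq, Prod.mk.injEq] at e
      obtain ⟨⟨-, e1, rfl, -⟩, e2⟩ := e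
      cases e1
      cases ih w' e2
      rfl
    | _ => simp [layers] at e
  | omD σ c h ih =>
    intro w' e
    cases w' with
    | omD σ' c' h' =>
      simp only [layers, List.cons.injEq, Prod.mk.injEq] at e
      obtain ⟨⟨-, e1, -, rfl⟩, e2⟩ := e
      cases e1
      cases ih c' e2
      rfl
    | _ => simp [layers] at e
  | omK σ c h ih =>
    intro w' e
    cases w' with
    | omK σ' c' h' =>
      simp only [layers, List.cons.injEq, Prod.mk.injEq] at e
      obtain ⟨⟨-, e1, -, rfl⟩, e2⟩ := e
      cases e1
      cases ih c' e2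
      rfl
    | _ => simp [layers] at e

instance [Countable (Inner d)] [Countable (Outer d)] : Countable (Σ b, Wd d b) :=
  Function.Injective.countable (f := fun x : Σ b, Wd d b => layers d x.2)
    fun ⟨_, w⟩ ⟨_, w'⟩ h => layers_inj d w w' h

variable {d} (hd : Good d)
include hd

theorem countable_inner : Countable (Inner d) :=
  Function.Surjective.countable hd.gen_surj

theorem countable_point : Countable (Point d) := by
  have := countable_inner hd
  have : Countable d.Γ₀ := Prod.fst_surjective.countable (f := (Prod.fst : Inner d → d.Γ₀))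
  have : Countable (FreeGroup (Ltr d)) := Function.Surjective.countable (f := FreeGroup.mk)
    fun x => Quot.exists_rep x
  exact Function.Injective.countable (f := fun x : Point d =>
    ((⟨x.st, x.σ⟩ : Σ s, Path d s), (⟨x.tag, x.w⟩ : Σ b, Wd d b), x.g, x.h))
    fun ⟨s, σ, b, w, g, h⟩ ⟨s', σ', b', w', g', h'⟩ q => by
      simp only [Prod.mk.injEq, Sigma.mk.injEq] at q
      obtain ⟨⟨rfl, q1⟩, ⟨rfl, q2⟩, rfl, rfl⟩ := q
      obtain rfl := eq_of_heq q1
      obtain rfl := eq_of_heq q2
      rfl

end Vale.Agent.P193.Orbit
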