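import Vale.Agent.P193.Full.Injective
import Vale.Agent.P193.Full.Calc.Space

/-! Cylinders of `Cn × S` over single points, and the transitivity of the swap group when every
single pair of points is a coefficient. -/

namespace Vale.Agent.P193.Orbit

open Calc

variable {S : Type} {G : Set (Set (S × S))}

/-- Every single pair of points is a coefficient. -/
def Pointwise (G : Set (Set (S × S))) : Prop := ∀ s t : S, InMon G (lift {(s, t)})

theorem mem_lift {m : Set (S × S)} {f g : Cn} {s t : S} :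
    (((f, s), (g, t)) : Sp S × Sp S) ∈ lift m ↔ f = g ∧ (s, t) ∈ m := Iff.rfl

/-- A coefficient acts trivially on the streams and uniformly in them. -/
theorem exists_lift {m : Set (Sp S × Sp S)} (h : InMon G m) : ∃ r, m = lift r := by
  induction h with
  | one =>
    refine ⟨gid Set.univ, Set.ext fun ⟨⟨f, s⟩, g, t⟩ => ?_⟩
    simp [lift, gid, Prod.ext_iff]
  | @of m _ _ => exact ⟨m, rfl⟩
  | inv _ ih =>
    obtain ⟨r, rfl⟩ := ih
    exact ⟨ginv r, Set.ext fun ⟨⟨f, s⟩, g, t⟩ => by simp [lift, ginv, eq_comm]⟩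
  | comp _ _ ihm ihn =>
    obtain ⟨r, rfl⟩ := ihm
    obtain ⟨r', rfl⟩ := ihn
    refine ⟨gcomp r r', Set.ext fun ⟨⟨f, s⟩, g, t⟩ => ⟨?_, ?_⟩⟩
    · rintro ⟨⟨k, u⟩, ⟨e1, h1⟩, e2, h2⟩
      exact ⟨e1.trans e2, u, h1, h2⟩
    · rintro ⟨e, u, h1, h2⟩
      exact ⟨(f, u), ⟨rfl, h1⟩, e, h2⟩
  | compl _ ih =>
    obtain ⟨r, rfl⟩ := ih
    refine ⟨gid (gdom r)ᶜ, Set.ext fun ⟨⟨f, s⟩, g, t⟩ => ⟨?_, ?_⟩⟩
    · rintro ⟨e, h⟩
      simp only [Prod.mk.injEq] at e
      exact ⟨e.1, e.2, fun ⟨u, hu⟩ => h ⟨(f, u), rfl, hu⟩⟩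
    · rintro ⟨e, e', h⟩
      exact ⟨Prod.ext e e', fun ⟨⟨k, u⟩, _, hu⟩ => h ⟨u, hu⟩⟩
  | union _ _ _ _ ihm ihn =>
    obtain ⟨r, rfl⟩ := ihm
    obtain ⟨r', rfl⟩ := ihn
    exact ⟨r ∪ r', Set.ext fun ⟨⟨f, s⟩, g, t⟩ => by simp [lift, and_or_left]⟩

/-- The zero stream. -/
def zero : Cn := ⟨fun _ => false, 0, fun _ _ => rfl⟩

@[simp] theorem cnCons_zero (c : Bool) (f : Cn) : (cnCons c f).1 0 = c := rfl

@[simp] theorem cnCons_succ (c : Bool) (f : Cn) (n : ℕ) : (cnCons c f).1 (n + 1) = f.1 n := rfl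

@[simp] theorem cnTail_cons (c : Bool) (f : Cn) : cnTail (cnCons c f) = f := rfl

@[simp] theorem zero_val (n : ℕ) : zero.1 n = false := rfl

theorem cnCons_head_tail (f : Cn) : cnCons (f.1 0) (cnTail f) = f := cnSplit.right_inv f

theorem cnCons_inj {c d : Bool} {f g : Cn} (h : cnCons c f = cnCons d g) : c = d ∧ f = g :=
  Prod.mk.inj (cnSplit.injective (a₁ := (c, f)) (a₂ := (d, g)) h)

theorem cnCons_false_zero : cnCons false zero = zero :=
  Subtype.ext (funext fun n => by cases n <;> rfl)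

/-- Prepend a word to a stream. -/
def cnPre : List Bool → Cn → Cn
  | [], f => f
  | c :: v, f => cnCons c (cnPre v f)

theorem hv_pre (v : List Bool) (f : Cn) (s : S) : (hv S).pre v (f, s) = (cnPre v f, s) := by
  induction v with
  | nil => rfl
  | cons c v ih => simp only [Halving.pre, ih, hv_cons, cnPre]

theorem exists_addr : ∀ (n : ℕ) (f : Cn), (∀ k, n ≤ k → f.1 k = false) →
    ∃ v : List Bool, v.length = n ∧ f = cnPre v zero := by
  intro n
  induction n with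
  | zero => exact fun f h => ⟨[], rfl, Subtype.ext (funext fun k => h k (Nat.zero_le k))⟩
  | succ n ih =>
    intro f h
    obtain ⟨v, hv, e⟩ := ih (cnTail f) fun k hk => h (k + 1) (by omega)
    exact ⟨f.1 0 :: v, by simp [hv], by rw [cnPre, ← e, cnCons_head_tail]⟩

/-- Finitely many points share a length of address. -/
theorem exists_addr₃ (a b c : Sp S) : ∃ u v w : List Bool, u.length = v.length ∧
    v.length = w.length ∧ a = (hv S).pre u (zero, a.2) ∧ b = (hv S).pre v (zero, b.2) ∧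
    c = (hv S).pre w (zero, c.2) := by
  obtain ⟨na, ha⟩ := a.1.2
  obtain ⟨nb, hb⟩ := b.1.2
  obtain ⟨nc, hc⟩ := c.1.2
  obtain ⟨u, hu, ea⟩ := exists_addr (max na (max nb nc)) a.1 fun k hk => ha k (by omega)
  obtain ⟨v, hv', eb⟩ := exists_addr (max na (max nb nc)) b.1 fun k hk => hb k (by omega)
  obtain ⟨w, hw, ec⟩ := exists_addr (max na (max nb nc)) c.1 fun k hk => hc k (by omega)
  exact ⟨u, v, w, hu.trans hv'.symm, hv'.trans hw.symm,
    by rw [hv_pre, ← ea], by rw [hv_pre, ← eb], by rw [hv_pre, ← ec]⟩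

/-- The graph carrying one cylinder to another. -/
def cylGraph (v : List Bool) (s : S) (w : List Bool) (t : S) : Set (Sp S × Sp S) :=
  piece (hv S) v w (lift {(s, t)})

theorem mem_cylGraph {v w : List Bool} {s t : S} {x y : Sp S} :
    (x, y) ∈ cylGraph v s w t ↔ ∃ f, x = (hv S).pre v (f, s) ∧ y = (hv S).pre w (f, t) := by
  constructor
  · rintro ⟨⟨⟨f, a⟩, g, b⟩, ⟨e, he⟩, hp⟩
    obtain ⟨rfl, rfl⟩ := Prod.mk.inj (Set.mem_singleton_iff.1 he)
    obtain rfl : f = g := e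
    exact ⟨f, (Prod.mk.inj hp).1.symm, (Prod.mk.inj hp).2.symm⟩
  · rintro ⟨f, rfl, rfl⟩
    exact ⟨((f, s), (f, t)), ⟨rfl, rfl⟩, rfl⟩

theorem isBis_cylGraph (hG : Pointwise G) {v w : List Bool} {s t : S} (hl : v.length = w.length)
    (hne : v ≠ w ∨ s ≠ t) : IsBis (coeffOf G) (cylGraph v s w t) := by
  refine isBis_iff.2 ⟨⟨?_, ?_⟩, ?_, reg_piece (hG s t)⟩
  · intro x y z h h'
    obtain ⟨f, e1, e2⟩ := mem_cylGraph.1 h
    obtain ⟨g, e3, e4⟩ := mem_cylGraph.1 h'
    rw [e2, e4, (Prod.mk.inj (pre_injective v (e1.symm.trans e3))).1]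
  · intro x y z h h'
    obtain ⟨f, e1, e2⟩ := mem_cylGraph.1 h
    obtain ⟨g, e3, e4⟩ := mem_cylGraph.1 h'
    rw [e1, e3, (Prod.mk.inj (pre_injective w (e2.symm.trans e4))).1]
  · rw [Set.disjoint_left]
    rintro x ⟨y, hy⟩ ⟨z, hz⟩
    obtain ⟨f, e1, -⟩ := mem_cylGraph.1 hy
    obtain ⟨g, -, e4⟩ := mem_cylGraph.1 hz
    obtain ⟨rfl, e⟩ := pre_inj_len hl (e1.symm.trans e4)
    exact hne.elim (fun h => h rfl) fun h => h (Prod.mk.inj e).2

/-- The swap group moves a point anywhere, fixing any third point. -/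
theorem exists_move (hG : Pointwise G) {a b c : Sp S} (hca : c ≠ a) (hcb : c ≠ b) :
    ∃ σ ∈ swapGroup (coeffOf G), σ a = b ∧ σ c = c := by
  rcases eq_or_ne a b with rfl | hab
  · exact ⟨1, one_mem _, rfl, rfl⟩
  obtain ⟨u, v, w, huv, hvw, ea, eb, ec⟩ := exists_addr₃ a b c
  have hne : u ≠ v ∨ a.2 ≠ b.2 := by
    by_contra h
    push Not at h
    exact hab (ea.trans (by rw [h.1, h.2]; exact eb.symm))
  refine ⟨swapPerm ⟨_, isBis_cylGraph hG huv hne⟩, Subgroup.subset_closure ⟨_, rfl⟩,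
    swap_fwd _ (mem_cylGraph.2 ⟨zero, ea, eb⟩), swap_fix _ ?_⟩
  rintro (⟨y, hy⟩ | ⟨y, hy⟩)
  · obtain ⟨f, e, -⟩ := mem_cylGraph.1 hy
    obtain ⟨rfl, e'⟩ := pre_inj_len (huv.trans hvw).symm (ec.symm.trans e)
    exact hca (ec.trans (by rw [(Prod.mk.inj e').2]; exact ea.symm))
  · obtain ⟨f, -, e⟩ := mem_cylGraph.1 hy
    obtain ⟨rfl, e'⟩ := pre_inj_len hvw.symm (ec.symm.trans e)
    exact hcb (ec.trans (by rw [(Prod.mk.inj e').2]; exact eb.symm))

theorem exists_move₁ (hG : Pointwise G) (a b : Sp S) :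
    ∃ σ ∈ swapGroup (coeffOf G), σ a = b := by
  rcases eq_or_ne a b with rfl | hab
  · exact ⟨1, one_mem _, rfl⟩
  obtain ⟨u, v, -, huv, -, ea, eb, -⟩ := exists_addr₃ a b b
  have hne : u ≠ v ∨ a.2 ≠ b.2 := by
    by_contra h
    push Not at h
    exact hab (ea.trans (by rw [h.1, h.2]; exact eb.symm))
  exact ⟨swapPerm ⟨_, isBis_cylGraph hG huv hne⟩, Subgroup.subset_closure ⟨_, rfl⟩,
    swap_fwd _ (mem_cylGraph.2 ⟨zero, ea, eb⟩)⟩

/-- The swap group is transitive on ordered pairs of distinct points. -/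
theorem pairs_transitive (hG : Pointwise G) {a b a' b' : Sp S} (h : a ≠ b) (h' : a' ≠ b') :
    ∃ σ ∈ swapGroup (coeffOf G), σ a = a' ∧ σ b = b' := by
  obtain ⟨σ, hσ, e⟩ := exists_move₁ hG a a'
  have hb : a' ≠ σ b := fun q => h (σ.injective (e.trans q))
  obtain ⟨ρ, hρ, e1, e2⟩ := exists_move hG hb h'
  exact ⟨ρ * σ, mul_mem hρ hσ, by rw [Equiv.Perm.mul_apply, e, e2],
    by rw [Equiv.Perm.mul_apply, e1]⟩

instance : Countable Cn := by
  refine Function.Surjective.countable (f := fun v : List Bool => cnPre v zero) fun f => ?_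
  obtain ⟨N, hN⟩ := f.2
  obtain ⟨v, -, e⟩ := exists_addr N f hN
  exact ⟨v, e.symm⟩

instance : Infinite Cn := by
  refine Infinite.of_injective (fun n : ℕ => cnPre (List.replicate n false) (cnCons true zero)) ?_
  have key : ∀ n k, k ≤ n → (cnPre (List.replicate n false) (cnCons true zero)).1 k
      = decide (k = n) := by
    intro n
    induction n with
    | zero => intro k hk; obtain rfl := Nat.le_zero.1 hk; rfl
    | succ n ih =>
      intro k hk
      cases k with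
      | zero => simp [List.replicate_succ, cnPre]
      | succ k => simp [List.replicate_succ, cnPre, ih k (by omega)]
  intro a b h
  rcases lt_trichotomy a b with hl | rfl | hl
  · have h1 := key a a le_rfl
    have h2 := key b a hl.le
    simp only at h
    rw [h, h2] at h1
    simp at h1
    exact h1
  · rfl
  · have h1 := key b b le_rfl
    have h2 := key a b hl.le
    simp only at h
    rw [← h, h2] at h1
    simp at h1
    exact h1.symm

end Vale.Agent.P193.Orbit
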