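import Vale.Agent.P193.Full.Orbit.Basic
import Vale.Agent.P193.Full.Model
import Mathlib.GroupTheory.FreeGroup.Reduce
import Mathlib.Tactic.Group

/-! In the core model every single pair of points is a coefficient: every point is linked to the
empty base point, whose singleton is cut out by finitely many generators. -/

namespace Vale.Agent.P193.Orbit

open Calc Core

variable (d : Data)

/-- The generating graphs. -/
def gens : Set (Set (Point d × Point d)) := {m | Gen d m}

variable {d}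

/-- A graph on points that is a coefficient. -/
def Mem (d : Data) (m : Set (Point d × Point d)) : Prop := InMon (gens d) (lift m)

theorem isPB_gid {α : Type} (s : Set α) : IsPB (gid s) :=
  ⟨fun _ _ _ h h' => h.1.symm.trans h'.1, fun _ _ _ h h' => h.1.trans h'.1.symm⟩

theorem isPB_graph {α : Type} {f : α → α} (hf : Function.Injective f) :
    IsPB {p : α × α | p.2 = f p.1} :=
  ⟨fun _ _ _ h h' => Eq.trans h h'.symm, fun _ _ _ h h' => hf (Eq.trans h.symm h')⟩

theorem mem_one : Mem d (gid Set.univ) := by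
  have e : lift (gid (Set.univ : Set (Point d))) = gid Set.univ :=
    Set.ext fun ⟨⟨f, s⟩, g, t⟩ => by simp [lift, gid, Prod.ext_iff]
  rw [Mem, e]
  exact InMon.one

theorem mem_gen {m : Set (Point d × Point d)} (h : Gen d m) (hp : IsPB m) : Mem d m :=
  InMon.of h hp

theorem mem_inv {m : Set (Point d × Point d)} (h : Mem d m) : Mem d (ginv m) := by
  have e : lift (ginv m) = ginv (lift m) :=
    Set.ext fun ⟨⟨f, s⟩, g, t⟩ => by simp [lift, ginv, eq_comm]
  rw [Mem, e]
  exact InMon.inv h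

theorem mem_comp {m n : Set (Point d × Point d)} (h : Mem d m) (h' : Mem d n) :
    Mem d (gcomp m n) := by
  have e : lift (gcomp m n) = gcomp (lift m) (lift n) := by
    refine Set.ext fun ⟨⟨f, s⟩, g, t⟩ => ⟨?_, ?_⟩
    · rintro ⟨e, u, h1, h2⟩
      exact ⟨(f, u), ⟨rfl, h1⟩, e, h2⟩
    · rintro ⟨⟨k, u⟩, ⟨e1, h1⟩, e2, h2⟩
      exact ⟨e1.trans e2, u, h1, h2⟩
  rw [Mem, e]
  exact InMon.comp h h'

theorem mem_compl {m : Set (Point d × Point d)} (h : Mem d m) : Mem d (gid (gdom m)ᶜ) := by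
  have e : lift (gid (gdom m)ᶜ) = gid (gdom (lift m))ᶜ := by
    refine Set.ext fun ⟨⟨f, s⟩, g, t⟩ => ⟨?_, ?_⟩
    · rintro ⟨e, e', h⟩
      exact ⟨Prod.ext e e', fun ⟨⟨k, u⟩, _, hu⟩ => h ⟨u, hu⟩⟩
    · rintro ⟨e, h⟩
      simp only [Prod.mk.injEq] at e
      exact ⟨e.1, e.2, fun ⟨u, hu⟩ => h ⟨(f, u), rfl, hu⟩⟩
  rw [Mem, e]
  exact InMon.compl h

theorem mem_inter {s t : Set (Point d)} (h : Mem d (gid s)) (h' : Mem d (gid t)) :
    Mem d (gid (s ∩ t)) := by
  rw [← gcomp_gid]
  exact mem_comp h h'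

theorem Mem.pb {m : Set (Point d × Point d)} (h : Mem d m) : IsPB m :=
  ⟨fun x y z h1 h2 => (Prod.mk.inj ((InMon.pb h).1 (zero, x) (zero, y) (zero, z) ⟨rfl, h1⟩
    ⟨rfl, h2⟩)).2,
    fun x y z h1 h2 => (Prod.mk.inj ((InMon.pb h).2 (zero, x) (zero, y) (zero, z) ⟨rfl, h1⟩
    ⟨rfl, h2⟩)).2⟩

/-- Two points are linked by a coefficient. -/
def Link (x y : Point d) : Prop := ∃ m, Mem d m ∧ (x, y) ∈ m

theorem Link.symm {x y : Point d} : Link x y → Link y x
  | ⟨m, hm, h⟩ => ⟨_, mem_inv hm, h⟩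

theorem Link.trans {x y z : Point d} : Link x y → Link y z → Link x z
  | ⟨_, hm, h⟩, ⟨_, hn, h'⟩ => ⟨_, mem_comp hm hn, y, h, h'⟩

/-- Right translation of the outer element. -/
def outerGraph (d : Data) (k : Outer d) : Set (Point d × Point d) :=
  {p | p.2 = { p.1 with h := p.1.h * k }}

/-- Right translation of the inner element. -/
def innerGraph (d : Data) (k : Inner d) : Set (Point d × Point d) :=
  {p | p.2 = { p.1 with g := p.1.g * k }}

theorem outerGraph_one : outerGraph d 1 = gid Set.univ := by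
  ext ⟨x, y⟩
  simp [outerGraph, gid]
  exact eq_comm

theorem outerGraph_mul (k l : Outer d) :
    outerGraph d (k * l) = gcomp (outerGraph d k) (outerGraph d l) := by
  ext ⟨x, y⟩
  simp [outerGraph, gcomp, mul_assoc]

theorem outerGraph_inv (k : Outer d) : outerGraph d k⁻¹ = ginv (outerGraph d k) := by
  ext ⟨x, y⟩
  constructor <;> rintro (h : _ = _) <;> simp only at h <;> subst h <;>
    simp [outerGraph, ginv]

theorem innerGraph_one : innerGraph d 1 = gid Set.univ := by
  ext ⟨x, y⟩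
  simp [innerGraph, gid]
  exact eq_comm

theorem innerGraph_mul (k l : Inner d) :
    innerGraph d (k * l) = gcomp (innerGraph d k) (innerGraph d l) := by
  ext ⟨x, y⟩
  simp [innerGraph, gcomp, mul_assoc]

theorem isPB_outer (k : Outer d) : IsPB (outerGraph d k) := by
  refine isPB_graph (f := fun x : Point d => { x with h := x.h * k }) fun x y e => ?_
  obtain ⟨s, σ, b, w, g, h⟩ := x
  obtain ⟨s', σ', b', w', g', h'⟩ := y
  simp only at e
  injection e with e1 e2 e3 e4 e5 e6
  subst e1 e2 e3 e4 e5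
  obtain rfl := mul_right_cancel e6
  rfl

theorem isPB_inner (k : Inner d) : IsPB (innerGraph d k) := by
  refine isPB_graph (f := fun x : Point d => { x with g := x.g * k }) fun x y e => ?_
  obtain ⟨s, σ, b, w, g, h⟩ := x
  obtain ⟨s', σ', b', w', g', h'⟩ := y
  simp only at e
  injection e with e1 e2 e3 e4 e5 e6
  subst e1 e2 e3 e4 e6
  obtain rfl := mul_right_cancel e5
  rfl

variable (hd : Good d)
include hd

theorem mem_outer (k : Outer d) : Mem d (outerGraph d k) := by
  let K : Subgroup (Outer d) :=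
    { carrier := {k | Mem d (outerGraph d k)}
      one_mem' := by show Mem d _; rw [outerGraph_one]; exact mem_one
      mul_mem' := fun {a b} ha hb => by show Mem d _; rw [outerGraph_mul]; exact mem_comp ha hb
      inv_mem' := fun {a} ha => by show Mem d _; rw [outerGraph_inv]; exact mem_inv ha }
  have h0 : ∀ a : d.Γ₀, ((a, 1, 1) : Outer d) ∈ K := fun a => by
    have ha : a ∈ Subgroup.closure (d.subGens : Set d.Γ₀) := by rw [hd.subGens_top]; trivial
    refine (Subgroup.closure_le (K.comap (MonoidHom.inl _ _))).2 (fun x hx => ?_) ha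
    exact mem_gen (Gen.outer₀ x hx) (isPB_outer _)
  have h1 : ∀ a : FreeGroup (Ltr d), ((1, a, 1) : Outer d) ∈ K := fun a => by
    have ha : a ∈ Subgroup.closure (Set.range (FreeGroup.of : Ltr d → _)) := by
      rw [FreeGroup.closure_range_of]; trivial
    refine (Subgroup.closure_le (K.comap ((MonoidHom.inr _ _).comp (MonoidHom.inl _ _)))).2 ?_ ha
    rintro _ ⟨x, rfl⟩
    exact mem_gen (Gen.outer₁ x) (isPB_outer _)
  have h2 : ∀ a : FreeGroup (Ltr d), ((1, 1, a) : Outer d) ∈ K := fun a => by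
    have ha : a ∈ Subgroup.closure (Set.range (FreeGroup.of : Ltr d → _)) := by
      rw [FreeGroup.closure_range_of]; trivial
    refine (Subgroup.closure_le (K.comap ((MonoidHom.inr _ _).comp (MonoidHom.inr _ _)))).2 ?_ ha
    rintro _ ⟨x, rfl⟩
    exact mem_gen (Gen.outer₂ x) (isPB_outer _)
  have h := mul_mem (mul_mem (h0 k.1) (h1 k.2.1)) (h2 k.2.2)
  simp only [Prod.mk_mul_mk, mul_one, one_mul, Prod.mk.eta] at h
  exact h

theorem mem_inner (k : Inner d) : Mem d (innerGraph d k) := by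
  obtain ⟨w, rfl⟩ := hd.gen_surj k
  induction w with
  | nil => simp only [List.map_nil, List.prod_nil, innerGraph_one]; exact mem_one
  | cons i w ih =>
    simp only [List.map_cons, List.prod_cons, innerGraph_mul]
    exact mem_comp (mem_gen (Gen.inner i) (isPB_inner _)) ih

theorem link_outer (x : Point d) (k : Outer d) : Link x { x with h := x.h * k } :=
  ⟨_, mem_outer hd k, rfl⟩

theorem link_inner (x : Point d) (k : Inner d) : Link x { x with g := x.g * k } :=
  ⟨_, mem_inner hd k, rfl⟩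

omit hd

theorem isPB_edge (e : Edge d) (he : e.OK) : IsPB {p : Point d × Point d | ∃ σ b w g h,
    p.1 = ⟨e.tgt, σ, b, w, g, h⟩ ∧
      p.2 = ⟨e.src, .cons e he σ, b, w, g, (1, e.pval, e.qval) * h⟩} := by
  constructor
  · rintro x y z ⟨σ, b, w, g, h, e1, e2⟩ ⟨σ', b', w', g', h', e3, e4⟩
    simp only at e1 e2 e3 e4
    have q := e1.symm.trans e3
    injection q with _ q2 q3 q4 q5 q6
    subst q2 q3 q4 q5 q6
    exact e2.trans e4.symm
  · rintro x y z ⟨σ, b, w, g, h, e1, e2⟩ ⟨σ', b', w', g', h', e3, e4⟩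
    simp only at e1 e2 e3 e4
    have q := e2.symm.trans e4
    injection q with _ q2 q3 q4 q5 q6
    injection q2 with _ q2'
    obtain rfl := mul_left_cancel q6
    subst q2' q3 q4 q5
    exact e1.trans e3.symm

/-- The base point. -/
def base₀ (d : Data) : Point d := ⟨.fin, .nil, false, .base, 1, 1⟩

theorem no_edge_fin {e : Edge d} (he : e.OK) : e.src ≠ .fin := by
  cases he with
  | flood src p s h => cases h <;> simp
  | floodEnd src p s h _ => cases h <;> simp
  | _ => simp

theorem path_fin {s : State d} (σ : Path d s) (hs : s = .fin) : HEq σ (Path.nil (d := d)) := by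
  cases σ with
  | nil => rfl
  | cons e he σ => exact absurd hs (no_edge_fin he)

/-- The five pushes are partial bijections. -/
theorem isPB_omC : IsPB {p : Point d × Point d | ∃ s, ∃ σ : Path d s, ∃ c g h,
    p.1 = ⟨s, σ, true, c, g, h⟩ ∧ p.2 = ⟨.fin, .nil, true, .omC σ c h, g, 1⟩} := by
  constructor
  · rintro x y z ⟨s, σ, c, g, h, e1, e2⟩ ⟨s', σ', c', g', h', e3, e4⟩
    simp only at e1 e2 e3 e4
    have q := e1.symm.trans e3
    injection q with q1 q2 q3 q4 q5 q6
    subst q1 q2 q4 q5 q6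
    exact e2.trans e4.symm
  · rintro x y z ⟨s, σ, c, g, h, e1, e2⟩ ⟨s', σ', c', g', h', e3, e4⟩
    simp only at e1 e2 e3 e4
    have q := e2.symm.trans e4
    injection q with q1 q2 q3 q4 q5 q6
    injection q4 with r1 r2 r3 r4
    subst r1 r2 r3 r4 q5
    exact e1.trans e3.symm

theorem isPB_omD : IsPB {p : Point d × Point d | ∃ s, ∃ σ : Path d s, ∃ c g h,
    p.1 = ⟨s, σ, false, c, g, h⟩ ∧ p.2 = ⟨.fin, .nil, false, .omD σ c h, g, 1⟩} := by
  constructor
  · rintro x y z ⟨s, σ, c, g, h, e1, e2⟩ ⟨s', σ', c', g', h', e3, e4⟩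
    simp only at e1 e2 e3 e4
    have q := e1.symm.trans e3
    injection q with q1 q2 q3 q4 q5 q6
    subst q1 q2 q4 q5 q6
    exact e2.trans e4.symm
  · rintro x y z ⟨s, σ, c, g, h, e1, e2⟩ ⟨s', σ', c', g', h', e3, e4⟩
    simp only at e1 e2 e3 e4
    have q := e2.symm.trans e4
    injection q with q1 q2 q3 q4 q5 q6
    injection q4 with r1 r2 r3 r4
    subst r1 r2 r3 r4 q5
    exact e1.trans e3.symm

theorem isPB_omK : IsPB {p : Point d × Point d | ∃ σ : Path d .guess, ∃ c g h,
    p.1 = ⟨.guess, σ, false, c, g, h⟩ ∧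
      p.2 = ⟨.fin, .nil, false, .omK σ c h, guessVal d σ * g, 1⟩} := by
  constructor
  · rintro x y z ⟨σ, c, g, h, e1, e2⟩ ⟨σ', c', g', h', e3, e4⟩
    simp only at e1 e2 e3 e4
    have q := e1.symm.trans e3
    injection q with q1 q2 q3 q4 q5 q6
    subst q2 q4 q5 q6
    exact e2.trans e4.symm
  · rintro x y z ⟨σ, c, g, h, e1, e2⟩ ⟨σ', c', g', h', e3, e4⟩
    simp only at e1 e2 e3 e4
    have q := e2.symm.trans e4
    injection q with q1 q2 q3 q4 q5 q6
    injection q4 with r2 r3 r4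
    subst r2 r3 r4
    obtain rfl := mul_left_cancel q5
    exact e1.trans e3.symm

theorem isPB_tMap : IsPB {p : Point d × Point d | ∃ c g, p.1 = ⟨.fin, .nil, false, c, g, 1⟩ ∧
    p.2 = ⟨.fin, .nil, true, .tpush c, g, 1⟩} := by
  constructor
  · rintro x y z ⟨c, g, e1, e2⟩ ⟨c', g', e3, e4⟩
    simp only at e1 e2 e3 e4
    have q := e1.symm.trans e3
    injection q with q1 q2 q3 q4 q5 q6
    subst q4 q5
    exact e2.trans e4.symm
  · rintro x y z ⟨c, g, e1, e2⟩ ⟨c', g', e3, e4⟩
    simp only at e1 e2 e3 e4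
    have q := e2.symm.trans e4
    injection q with q1 q2 q3 q4 q5 q6
    injection q4 with r1
    subst r1 q5
    exact e1.trans e3.symm

include hd

theorem isPB_theta : IsPB {p : Point d × Point d |
    p.2 = ⟨.fin, .nil, false, .theta p.1.σ p.1.tag p.1.w p.1.g, toInner d p.1.h, 1⟩} := by
  refine isPB_graph (f := fun x : Point d =>
    ⟨.fin, .nil, false, .theta x.σ x.tag x.w x.g, toInner d x.h, 1⟩) fun x y q => ?_
  obtain ⟨s, σ, b, w, g, h⟩ := x
  obtain ⟨s', σ', b', w', g', h'⟩ := y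
  injection q with q1 q2 q3 q4 q5 q6
  injection q4 with r1 r2 r3 r4 r5
  simp only [toInner, MonoidHom.prodMap_def, MonoidHom.prod_apply, MonoidHom.coe_comp,
    Function.comp_apply, MonoidHom.coe_fst, MonoidHom.coe_snd, MonoidHom.id_apply,
    Prod.mk.injEq] at q5
  obtain rfl : h = h' :=
    Prod.ext q5.1 (Prod.ext (hd.emb2_inj q5.2.1) (hd.emb2_inj q5.2.2))
  subst r1 r2 r3 r4 r5
  rfl

theorem single_base : Mem d {(base₀ d, base₀ d)} := by
  have h := mem_inter (mem_inter (mem_inter (mem_gen (Gen.atState .fin) (isPB_gid _))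
    (mem_gen Gen.hOne (isPB_gid _))) (mem_gen Gen.gOne (isPB_gid _)))
    (mem_inter (mem_inter (mem_compl (mem_inv (mem_gen Gen.theta (isPB_theta hd))))
      (mem_compl (mem_inv (mem_gen Gen.omD isPB_omD))))
      (mem_compl (mem_inv (mem_gen Gen.omK isPB_omK))))
  convert h using 1
  ext ⟨x, y⟩
  constructor
  · rintro (e : (x, y) = _)
    obtain ⟨rfl, rfl⟩ := Prod.mk.inj e
    refine ⟨rfl, ⟨⟨rfl, rfl⟩, rfl, rfl⟩, ⟨?_, ?_⟩, ?_⟩
    · rintro ⟨z, hz⟩
      have hz : base₀ d = _ := hz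
      injection hz with q1 q2 q3 q4
      injection q4
    · rintro ⟨z, s, σ, c, g, h, -, hz⟩
      injection hz with q1 q2 q3 q4
      injection q4
    · rintro ⟨z, σ, c, g, h, -, hz⟩
      injection hz with q1 q2 q3 q4
      injection q4
  · rintro ⟨e, ⟨⟨h1, h2⟩, h3, h4⟩, ⟨h5, h6⟩, h7⟩
    simp only at e
    subst e
    obtain ⟨s, σ, b, w, g, h⟩ := x
    simp only [Set.mem_ofPred_eq] at h1 h2 h3 h4
    subst h1 h2 h3 h4
    obtain rfl := eq_of_heq (path_fin σ rfl)
    cases w with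
    | base => rfl
    | theta σ' b w g =>
      refine absurd ?_ h5
      refine ⟨⟨_, σ', b, w, g, 1⟩, ?_⟩
      show (⟨.fin, .nil, false, .theta σ' b w g, 1, 1⟩ : Point d) = _
      rw [map_one]
    | omD σ' c h => exact absurd ⟨⟨_, σ', false, c, 1, h⟩, _, σ', c, 1, h, rfl, rfl⟩ h6
    | omK σ' c h =>
      refine absurd ⟨⟨_, σ', false, c, (guessVal d σ')⁻¹, h⟩, σ', c, _, h, rfl, ?_⟩ h7
      simp

theorem link_fin {s : State d} (σ : Path d s) (b : Bool) (w : Wd d b) (g : Inner d) (h : Outer d) :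
    Link ⟨.fin, .nil, b, w, g, 1⟩ ⟨s, σ, b, w, g, h⟩ := by
  induction σ generalizing h with
  | nil =>
    have := link_outer hd ⟨.fin, .nil, b, w, g, 1⟩ h
    simpa using this
  | cons e he σ ih =>
    refine (ih ((1, e.pval, e.qval)⁻¹ * h)).trans
      ⟨_, mem_gen (Gen.edge e he) (isPB_edge e he), σ, b, w, g, _, rfl, ?_⟩
    simp only [mul_inv_cancel_left]

theorem link_base {b : Bool} (w : Wd d b) :
    ∀ g, Link (base₀ d) ⟨.fin, .nil, b, w, g, 1⟩ := by
  induction w with
  | omC σ c h ih =>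
    exact fun g => ((ih g).trans (link_fin hd σ true c g h)).trans
      ⟨_, mem_gen Gen.omC isPB_omC, _, σ, c, g, h, rfl, rfl⟩
  | tpush c ih => exact fun g => (ih g).trans ⟨_, mem_gen Gen.tMap isPB_tMap, c, g, rfl, rfl⟩
  | base =>
    intro g
    have := link_inner hd (base₀ d) g
    simpa [base₀] using this
  | theta σ b w g' ih =>
    intro g
    have h1 : Link (base₀ d) ⟨.fin, .nil, false, .theta σ b w g', toInner d 1, 1⟩ :=
      ((ih g').trans (link_fin hd σ b w g' 1)).trans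
        ⟨_, mem_gen Gen.theta (isPB_theta hd), rfl⟩
    have h2 := h1.trans (link_inner hd _ g)
    simpa using h2
  | omD σ c h ih =>
    exact fun g => ((ih g).trans (link_fin hd σ false c g h)).trans
      ⟨_, mem_gen Gen.omD isPB_omD, _, σ, c, g, h, rfl, rfl⟩
  | omK σ c h ih =>
    intro g
    refine ((ih ((guessVal d σ)⁻¹ * g)).trans (link_fin hd σ false c _ h)).trans
      ⟨_, mem_gen Gen.omK isPB_omK, σ, c, _, h, rfl, ?_⟩
    simp

theorem link_all (x : Point d) : Link (base₀ d) x :=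
  (link_base hd x.w x.g).trans (link_fin hd x.σ x.tag x.w x.g x.h)

/-- Every single pair of points is a coefficient. -/
theorem pointwise : Pointwise (gens d) := fun x y => by
  obtain ⟨m, hm, hx⟩ := link_all hd x
  obtain ⟨n, hn, hy⟩ := link_all hd y
  have h := mem_comp (mem_comp (mem_inv hm) (single_base hd)) hn
  show Mem d {(x, y)}
  convert h using 1
  ext ⟨a, b⟩
  constructor
  · rintro (e : (a, b) = _)
    obtain ⟨rfl, rfl⟩ := Prod.mk.inj e
    exact ⟨_, ⟨_, hx, rfl⟩, hy⟩
  · rintro ⟨c, ⟨c', h1, h2⟩, h3⟩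
    obtain ⟨rfl, rfl⟩ := Prod.mk.inj (Set.mem_singleton_iff.1 h2)
    rw [Set.mem_singleton_iff, hm.pb.1 _ _ _ hx h1, hn.pb.1 _ _ _ hy h3]

end Vale.Agent.P193.Orbit
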