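import Vale.Agent.P193.Full.Orbit.Basic
import Mathlib.GroupTheory.Finiteness
import Mathlib.GroupTheory.Perm.Support
import Mathlib.GroupTheory.GroupAction.Basic

/-! The point stabiliser of the swap group is generated by a shift germ and a copy of the
group on the complement of a cylinder (a corner). -/

namespace Vale.Agent.P193.Orbit

open Calc

variable {S : Type} {G : Set (Set (S × S))} (s₀ : S)

/-- Streams: shift the germ at zero. -/
def shiftCn (f : Cn) : Cn :=
  if f.1 0 = false then cnCons false f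
  else if (cnTail f).1 0 = false then cnCons false (cnCons true (cnTail (cnTail f)))
  else cnCons true (cnTail (cnTail f))

/-- The inverse of the shift. -/
def unshiftCn (f : Cn) : Cn :=
  if f.1 0 = true then cnCons true (cnCons true (cnTail f))
  else if (cnTail f).1 0 = false then cnTail f
  else cnCons true (cnCons false (cnTail (cnTail f)))

theorem cn_cases (f : Cn) :
    (∃ g, f = cnCons false g) ∨ (∃ g, f = cnCons true (cnCons false g)) ∨
      ∃ g, f = cnCons true (cnCons true g) := by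
  rw [← cnCons_head_tail f]
  cases h : f.1 0
  · exact Or.inl ⟨_, rfl⟩
  · rw [← cnCons_head_tail (cnTail f)]
    cases h' : (cnTail f).1 0
    · exact Or.inr (Or.inl ⟨_, rfl⟩)
    · exact Or.inr (Or.inr ⟨_, rfl⟩)

/-- The shift on streams. -/
def shiftEquiv : Cn ≃ Cn where
  toFun := shiftCn
  invFun := unshiftCn
  left_inv f := by
    rcases cn_cases f with ⟨g, rfl⟩ | ⟨g, rfl⟩ | ⟨g, rfl⟩ <;> simp [shiftCn, unshiftCn]
  right_inv f := by
    rw [← cnCons_head_tail f]
    cases h : f.1 0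
    · rw [← cnCons_head_tail (cnTail f)]
      cases h' : (cnTail f).1 0 <;> simp [shiftCn, unshiftCn]
    · simp [shiftCn, unshiftCn]

open Classical in
/-- The shift in the fibre of one point. -/
noncomputable def shiftPerm : Equiv.Perm (Sp S) where
  toFun x := if x.2 = s₀ then (shiftEquiv x.1, x.2) else x
  invFun x := if x.2 = s₀ then (shiftEquiv.symm x.1, x.2) else x
  left_inv x := by
    obtain ⟨f, a⟩ := x
    by_cases h : a = s₀ <;> simp [h]
  right_inv x := by
    obtain ⟨f, a⟩ := x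
    by_cases h : a = s₀ <;> simp [h]

theorem shiftPerm_fib (f : Cn) : shiftPerm s₀ (f, s₀) = (shiftCn f, s₀) := if_pos rfl

theorem shiftPerm_out {x : Sp S} (h : x.2 ≠ s₀) : shiftPerm s₀ x = x := if_neg h

/-- The base point. -/
def base : Sp S := (zero, s₀)

theorem shiftPerm_base : shiftPerm s₀ (base s₀) = base s₀ := by
  rw [base, shiftPerm_fib, shiftCn, if_pos (zero_val 0), cnCons_false_zero]

theorem shiftPerm_cone (k : ℕ) (g : Cn) :
    shiftPerm s₀ ((hv S).pre (List.replicate (k + 1) false) (g, s₀)) =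
      (hv S).pre (List.replicate (k + 2) false) (g, s₀) := by
  rw [hv_pre, hv_pre, shiftPerm_fib]
  simp [List.replicate_succ, cnPre, shiftCn]

theorem shiftPerm_pow (k : ℕ) (g : Cn) :
    (shiftPerm s₀ ^ k) ((hv S).pre [false] (g, s₀)) =
      (hv S).pre (List.replicate (k + 1) false) (g, s₀) := by
  induction k with
  | zero => rfl
  | succ k ih => rw [pow_succ', Equiv.Perm.mul_apply, ih, shiftPerm_cone]

/-- The coefficient that is the identity away from one point. -/
def offPoint : Set (Sp S × Sp S) :=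
  gid (gdom (lift ({(s₀, s₀)} : Set (S × S))))ᶜ

theorem mem_offPoint {x y : Sp S} : (x, y) ∈ offPoint s₀ ↔ x = y ∧ x.2 ≠ s₀ := by
  refine ⟨fun ⟨e, h⟩ => ⟨e, fun hs => h ⟨x, rfl, ?_⟩⟩, fun ⟨e, h⟩ => ⟨e, ?_⟩⟩
  · simp only [Set.mem_singleton_iff, Prod.mk.injEq]
    exact ⟨hs, hs⟩
  · rintro ⟨z, -, hz⟩
    exact h (Prod.mk.inj (Set.mem_singleton_iff.1 hz)).1

variable {s₀}

theorem reg_offPoint (hG : Pointwise G) : Reg (coeffOf G) (offPoint s₀) := by
  have h : piece (hv S) [] [] (offPoint s₀) = offPoint s₀ := by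
    show id '' _ = _
    rw [Set.image_id]
  rw [← h]
  exact reg_piece (InMon.compl (hG s₀ s₀))

theorem reg_cylGraph (hG : Pointwise G) (v w : List Bool) (s t : S) :
    Reg (coeffOf G) (cylGraph v s w t) := reg_piece (hG s t)

theorem shiftPerm_mem (hG : Pointwise G) : shiftPerm s₀ ∈ swapGroup (coeffOf G) := by
  refine mem_swapGroup_iff.2 ?_
  convert reg_union (reg_offPoint hG (s₀ := s₀)) (reg_union
    (reg_cylGraph hG [false] [false, false] s₀ s₀) (reg_union
      (reg_cylGraph hG [true, false] [false, true] s₀ s₀)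
      (reg_cylGraph hG [true, true] [true] s₀ s₀))) using 1
  ext ⟨x, y⟩
  simp only [Set.mem_union, mem_offPoint, mem_cylGraph, hv_pre, cnPre]
  show shiftPerm s₀ x = y ↔ _
  obtain ⟨f, s⟩ := x
  rcases eq_or_ne s s₀ with rfl | hs
  · rw [shiftPerm_fib]
    constructor
    · rintro rfl
      rcases cn_cases f with ⟨g, rfl⟩ | ⟨g, rfl⟩ | ⟨g, rfl⟩
      · exact Or.inr (Or.inl ⟨g, rfl, by simp [shiftCn]⟩)
      · exact Or.inr (Or.inr (Or.inl ⟨g, rfl, by simp [shiftCn]⟩))
      · exact Or.inr (Or.inr (Or.inr ⟨g, rfl, by simp [shiftCn]⟩))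
    · rintro (⟨-, h⟩ | ⟨g, e, rfl⟩ | ⟨g, e, rfl⟩ | ⟨g, e, rfl⟩)
      · exact absurd rfl h
      all_goals
        obtain ⟨rfl, -⟩ := Prod.mk.inj e
        simp [shiftCn]
  · rw [shiftPerm_out s₀ (x := (f, s)) hs]
    constructor
    · exact fun h => Or.inl ⟨h, hs⟩
    · rintro (⟨h, -⟩ | ⟨g, e, -⟩ | ⟨g, e, -⟩ | ⟨g, e, -⟩)
      · exact h
      all_goals exact absurd (Prod.mk.inj e).2 hs

variable (s₀)

/-- Membership in the corner's complement. -/
def OffCorner (y : Sp S) : Prop := ¬ ∃ g, y = (hv S).pre [false] (g, s₀)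

open Classical in
/-- The space is the complement of a corner. -/
noncomputable def cornerFun (x : Sp S) : Sp S :=
  if x.2 = s₀ then (hv S).pre [true] x else x

open Classical in
noncomputable instance : DecidablePred (OffCorner s₀ (S := S)) := fun _ => Classical.dec _

theorem cornerFun_off (x : Sp S) : OffCorner s₀ (cornerFun s₀ x) := by
  rintro ⟨g, hg⟩
  obtain ⟨f, s⟩ := x
  rcases eq_or_ne s s₀ with rfl | hs
  · rw [cornerFun, if_pos rfl, hv_pre, hv_pre] at hg
    exact Bool.noConfusion (cnCons_inj (Prod.mk.inj hg).1).1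
  · rw [cornerFun, if_neg hs, hv_pre] at hg
    exact hs (Prod.mk.inj hg).2

/-- The corner identification. -/
noncomputable def cornerEquiv : Sp S ≃ {y : Sp S // OffCorner s₀ y} :=
  Equiv.ofBijective (fun x => ⟨cornerFun s₀ x, cornerFun_off s₀ x⟩) ⟨fun x y h => by
    have h : cornerFun s₀ x = cornerFun s₀ y := congrArg Subtype.val h
    by_cases hx : x.2 = s₀ <;> by_cases hy : y.2 = s₀ <;> simp only [cornerFun, hx, hy, if_true,
      if_false] at h
    · exact pre_injective _ h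
    · exact absurd (by rw [← h, hv_pre_snd]; exact hx) hy
    · exact absurd (by rw [h, hv_pre_snd]; exact hy) hx
    · exact h, fun ⟨⟨f, s⟩, hy⟩ => by
    rcases eq_or_ne s s₀ with rfl | hs
    · rw [← cnCons_head_tail f] at hy
      cases hf : f.1 0
      · rw [hf] at hy
        exact absurd ⟨cnTail f, by rw [hv_pre]; rfl⟩ hy
      · refine ⟨(cnTail f, s), Subtype.ext ?_⟩
        show cornerFun s (cnTail f, s) = (f, s)
        rw [cornerFun, if_pos rfl, hv_pre]
        conv_rhs => rw [← cnCons_head_tail f, hf]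
        rfl
    · exact ⟨(f, s), Subtype.ext (if_neg hs)⟩⟩

theorem cornerEquiv_apply (x : Sp S) : (cornerEquiv s₀ x : Sp S) = cornerFun s₀ x := rfl

/-- The graph of the corner identification. -/
def cornerGraph : Set (Sp S × Sp S) := offPoint s₀ ∪ cylGraph [] s₀ [true] s₀

theorem mem_cornerGraph {x y : Sp S} : (x, y) ∈ cornerGraph s₀ ↔ cornerFun s₀ x = y := by
  simp only [cornerGraph, Set.mem_union, mem_offPoint, mem_cylGraph]
  obtain ⟨f, s⟩ := x
  rcases eq_or_ne s s₀ with rfl | hs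
  · rw [cornerFun, if_pos rfl]
    constructor
    · rintro (⟨-, h⟩ | ⟨g, e, rfl⟩)
      · exact absurd rfl h
      · rw [e]; rfl
    · rintro rfl
      exact Or.inr ⟨f, rfl, rfl⟩
  · rw [cornerFun, if_neg hs]
    constructor
    · rintro (⟨h, -⟩ | ⟨g, e, -⟩)
      · exact h
      · exact absurd (Prod.mk.inj e).2 hs
    · exact fun h => Or.inl ⟨h, hs⟩

/-- Copy a permutation to the complement of the corner. -/
noncomputable def cornerHom : Equiv.Perm (Sp S) →* Equiv.Perm (Sp S) :=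
  Equiv.Perm.extendDomainHom (cornerEquiv s₀)

theorem cornerHom_apply (σ : Equiv.Perm (Sp S)) (x : Sp S) :
    cornerHom s₀ σ (cornerFun s₀ x) = cornerFun s₀ (σ x) :=
  Equiv.Perm.extendDomain_apply_image σ (cornerEquiv s₀) x

theorem cornerHom_corner (σ : Equiv.Perm (Sp S)) (g : Cn) :
    cornerHom s₀ σ ((hv S).pre [false] (g, s₀)) = (hv S).pre [false] (g, s₀) :=
  Equiv.Perm.extendDomain_apply_not_subtype σ (cornerEquiv s₀) fun h => h ⟨g, rfl⟩

theorem exists_corner {y : Sp S} (h : OffCorner s₀ y) : ∃ x, cornerFun s₀ x = y :=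
  ⟨(cornerEquiv s₀).symm ⟨y, h⟩, congrArg Subtype.val ((cornerEquiv s₀).apply_symm_apply ⟨y, h⟩)⟩

variable {s₀}

theorem cornerHom_mem (hG : Pointwise G) {σ : Equiv.Perm (Sp S)}
    (hσ : σ ∈ swapGroup (coeffOf G)) : cornerHom s₀ σ ∈ swapGroup (coeffOf G) := by
  have hc : Reg (coeffOf G) (cornerGraph s₀) :=
    reg_union (reg_offPoint hG) (reg_cylGraph hG _ _ _ _)
  refine mem_swapGroup_iff.2 ?_
  convert reg_union (reg_gcomp (reg_gcomp (reg_ginv hc) (mem_swapGroup_iff.1 hσ)) hc)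
    (reg_cylGraph hG [false] [false] s₀ s₀) using 1
  ext ⟨x, y⟩
  show cornerHom s₀ σ x = y ↔ _
  constructor
  · rintro rfl
    by_cases h : OffCorner s₀ x
    · obtain ⟨a, rfl⟩ := exists_corner s₀ h
      refine Or.inl ⟨σ a, ⟨a, (mem_cornerGraph s₀).2 rfl, rfl⟩, (mem_cornerGraph s₀).2 ?_⟩
      exact (cornerHom_apply s₀ σ a).symm
    · obtain ⟨g, rfl⟩ := not_not.1 h
      exact Or.inr (mem_cylGraph.2 ⟨g, rfl, cornerHom_corner s₀ σ g⟩)
  · rintro (⟨b, ⟨a, ha, hab⟩, hb⟩ | h)
    · have ha : cornerFun s₀ a = x := (mem_cornerGraph s₀).1 ha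
      have hb : cornerFun s₀ b = y := (mem_cornerGraph s₀).1 hb
      have hab : σ a = b := hab
      rw [← ha, cornerHom_apply, hab, hb]
    · obtain ⟨g, rfl, rfl⟩ := mem_cylGraph.1 h
      exact cornerHom_corner s₀ σ g

theorem exists_cornerHom (hG : Pointwise G) {σ : Equiv.Perm (Sp S)}
    (hσ : σ ∈ swapGroup (coeffOf G))
    (hfix : ∀ g, σ ((hv S).pre [false] (g, s₀)) = (hv S).pre [false] (g, s₀)) :
    σ ∈ (swapGroup (coeffOf G)).map (cornerHom s₀) := by
  have hp : ∀ y, OffCorner s₀ (σ y) ↔ OffCorner s₀ y := by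
    refine fun y => not_congr ⟨fun ⟨g, hg⟩ => ⟨g, σ.injective (hg.trans (hfix g).symm)⟩, ?_⟩
    rintro ⟨g, rfl⟩
    exact ⟨g, hfix g⟩
  let ρ : Equiv.Perm (Sp S) :=
    (cornerEquiv s₀).trans ((σ.subtypePerm hp).trans (cornerEquiv s₀).symm)
  have hρ : ∀ x, cornerFun s₀ (ρ x) = σ (cornerFun s₀ x) := fun x =>
    congrArg Subtype.val ((cornerEquiv s₀).apply_symm_apply
      (σ.subtypePerm hp (cornerEquiv s₀ x)))
  refine ⟨ρ, mem_swapGroup_iff.2 ?_, Equiv.ext fun y => ?_⟩
  · have hc : Reg (coeffOf G) (cornerGraph s₀) :=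
      reg_union (reg_offPoint hG) (reg_cylGraph hG _ _ _ _)
    convert reg_gcomp (reg_gcomp hc (mem_swapGroup_iff.1 hσ)) (reg_ginv hc) using 1
    ext ⟨x, z⟩
    show ρ x = z ↔ _
    constructor
    · rintro rfl
      exact ⟨σ (cornerFun s₀ x), ⟨cornerFun s₀ x, (mem_cornerGraph s₀).2 rfl, rfl⟩,
        (mem_cornerGraph s₀).2 (hρ x)⟩
    · rintro ⟨b, ⟨a, ha, hab⟩, hb⟩
      have ha : cornerFun s₀ x = a := (mem_cornerGraph s₀).1 ha
      have hb : cornerFun s₀ z = b := (mem_cornerGraph s₀).1 hb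
      have hab : σ a = b := hab
      refine (cornerEquiv s₀).injective (Subtype.ext ?_)
      rw [cornerEquiv_apply, cornerEquiv_apply, hρ, ha, hab, hb]
  · by_cases h : OffCorner s₀ y
    · obtain ⟨a, rfl⟩ := exists_corner s₀ h
      rw [cornerHom_apply, hρ]
    · obtain ⟨g, rfl⟩ := not_not.1 h
      rw [cornerHom_corner, hfix]

theorem hv_pre_cons (n : ℕ) (x : Cn) (s : S) :
    (hv S).pre (List.replicate n false) ((hv S).cons (false, (x, s))) =
      (hv S).pre (List.replicate (n + 1) false) (x, s) := by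
  rw [List.replicate_succ', pre_append]; rfl

theorem cnPre_eq_zero : ∀ {v : List Bool} {f : Cn}, cnPre v f = zero →
    v = List.replicate v.length false ∧ f = zero
  | [], f, h => ⟨rfl, h⟩
  | c :: v, f, h => by
    rw [cnPre, ← cnCons_false_zero] at h
    obtain ⟨rfl, h'⟩ := cnCons_inj h
    obtain ⟨e, hf⟩ := cnPre_eq_zero h'
    exact ⟨congrArg (List.cons false) e, hf⟩

/-- The stabiliser of the base point is generated by the shift and the corner copy. -/
theorem stab_eq (hG : Pointwise G) :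
    swapGroup (coeffOf G) ⊓ MulAction.stabilizer (Equiv.Perm (Sp S)) (base s₀) =
      Subgroup.zpowers (shiftPerm s₀) ⊔ (swapGroup (coeffOf G)).map (cornerHom s₀) := by
  refine le_antisymm ?_ (sup_le ?_ ?_)
  · rintro σ ⟨hσ, hfix⟩
    have hfix : σ (base s₀) = base s₀ := hfix
    obtain ⟨l, hl, hlσ⟩ := mem_swapGroup_iff.1 hσ
    have hg : (base s₀, base s₀) ∈ graphOf σ := hfix
    rw [hlσ] at hg
    obtain ⟨⟨v, w, m⟩, ht, hp⟩ := hg
    obtain ⟨r, rfl⟩ := exists_lift (hl _ ht)
    obtain ⟨⟨f, a⟩, ⟨g, b⟩, ⟨e, hr⟩, hxy⟩ := mem_piece.1 hp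
    obtain rfl : f = g := e
    simp only [hv_pre, base, Prod.mk.injEq] at hxy
    obtain ⟨⟨hv', rfl⟩, hw, rfl⟩ := hxy
    obtain ⟨ev, -⟩ := cnPre_eq_zero hv'.symm
    obtain ⟨ew, -⟩ := cnPre_eq_zero hw.symm
    set k := v.length
    set j := w.length
    have key : ∀ x, σ ((hv S).pre v (x, s₀)) = (hv S).pre w (x, s₀) := fun x => by
      show ((hv S).pre v (x, s₀), (hv S).pre w (x, s₀)) ∈ graphOf σ
      rw [hlσ]
      exact ⟨_, ht, piece_mem ⟨rfl, hr⟩⟩
    let ρ := (shiftPerm s₀ ^ j)⁻¹ * σ * shiftPerm s₀ ^ k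
    have hρ : ρ ∈ (swapGroup (coeffOf G)).map (cornerHom s₀) := by
      refine exists_cornerHom hG (mul_mem (mul_mem (inv_mem (pow_mem (shiftPerm_mem hG) _)) hσ)
        (pow_mem (shiftPerm_mem hG) _)) fun x => ?_
      have h1 := key (cnCons false x)
      rw [ev, ew, ← hv_cons, hv_pre_cons, hv_pre_cons] at h1
      rw [Equiv.Perm.mul_apply, Equiv.Perm.mul_apply, shiftPerm_pow, h1, Equiv.Perm.inv_eq_iff_eq,
        shiftPerm_pow]
    have e : σ = shiftPerm s₀ ^ j * ρ * (shiftPerm s₀ ^ k)⁻¹ := by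
      simp only [ρ]; group
    rw [e]
    exact mul_mem (mul_mem (Subgroup.mem_sup_left (pow_mem (Subgroup.mem_zpowers _) _))
      (Subgroup.mem_sup_right hρ))
      (inv_mem (Subgroup.mem_sup_left (pow_mem (Subgroup.mem_zpowers _) _)))
  · rw [Subgroup.zpowers_le]
    exact ⟨shiftPerm_mem hG, shiftPerm_base s₀⟩
  · rintro _ ⟨σ, hσ, rfl⟩
    refine ⟨cornerHom_mem hG hσ, ?_⟩
    have h := cornerHom_corner s₀ σ zero
    rw [hv_pre] at h
    simp only [cnPre, cnCons_false_zero] at h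
    exact h

theorem fg_map {G' : Type*} [Group G'] {H : Type*} [Group H] {P : Subgroup G'} (h : P.FG)
    (f : G' →* H) : (P.map f).FG :=
  (Subgroup.fg_iff_submonoid_fg _).2 (((Subgroup.fg_iff_submonoid_fg _).1 h).map f)

/-- The stabiliser of a point is finitely generated when the swap group is. -/
theorem stabilizer_fg (hG : Pointwise G) (hfg : Group.FG (swapGroup (coeffOf G))) (y : Sp S) :
    (MulAction.stabilizer (swapGroup (coeffOf G)) y).FG := by
  set L := swapGroup (coeffOf G)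
  have hbase : (MulAction.stabilizer L (base y.2)).FG := by
    have h : (L ⊓ MulAction.stabilizer (Equiv.Perm (Sp S)) (base y.2)).FG := by
      rw [stab_eq hG, Subgroup.zpowers_eq_closure]
      exact Subgroup.FG.sup ⟨{shiftPerm y.2}, by simp⟩
        (fg_map ((Group.fg_iff_subgroup_fg L).1 hfg) _)
    have e : (MulAction.stabilizer L (base y.2)).map L.subtype =
        L ⊓ MulAction.stabilizer (Equiv.Perm (Sp S)) (base y.2) := by
      ext σ
      simp only [Subgroup.mem_map, Subgroup.mem_inf, MulAction.mem_stabilizer_iff]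
      exact ⟨fun ⟨a, ha, e⟩ => e ▸ ⟨a.2, ha⟩, fun ⟨h1, h2⟩ => ⟨⟨σ, h1⟩, h2, rfl⟩⟩
    rw [← Group.fg_iff_subgroup_fg] at h ⊢
    rw [← e] at h
    exact Group.fg_of_surjective (f := (Subgroup.equivMapOfInjective _ L.subtype
      L.subtype_injective).symm.toMonoidHom) (MulEquiv.surjective _)
  obtain ⟨σ, hσ, e⟩ := exists_move₁ hG (base y.2) y
  have e' : (⟨σ, hσ⟩ : L) • base y.2 = y := e
  rw [← e', MulAction.stabilizer_smul_eq_stabilizer_map_conj]
  exact fg_map hbase _

end Vale.Agent.P193.Orbit
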